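import Mathlib
import Vale.Agent.Lib.P162.Defs
import Vale.Agent.Lib.P162.helper36.MoveInj

/-!
# P162 (Thorp shuffle), job L: the uniform law on injective placements is stationary

Every single shuffle (fixed coins) is a bijection of the positions, so the uniform law on the
placements of `k` distinct cards is stationary for the `k`-card kernel.
-/

namespace Vale.Agent.Lib.P162.H52

open Finset BigOperators

theorem unif_stationary (h k : ℕ) [NeZero h] (y : Fin k → ZMod (2 * h)) :
    ∑ z, unifInj h k z * Kmat h k z y = unifInj h k y := by
  classical
  have hcard : ∀ z : Fin k → ZMod (2 * h),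
      ((univ.filter fun c : ZMod h → Bool => ∀ j, move h c (z j) = y j).card : ℝ) =
        ∑ c : ZMod h → Bool, if (∀ j, move h c (z j) = y j) then (1:ℝ) else 0 := by
    intro z
    rw [Finset.card_filter]
    push_cast
    rfl
  have hinner : ∀ c : ZMod h → Bool,
      ∑ z : Fin k → ZMod (2 * h),
        unifInj h k z * (if (∀ j, move h c (z j) = y j) then (1:ℝ) else 0) = unifInj h k y := by
    intro c
    have hbij : Function.Bijective (move h c) :=
      (H36.move_injective h c).bijective_of_finite
    let e : ZMod (2 * h) ≃ ZMod (2 * h) := Equiv.ofBijective (move h c) hbij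
    have he : ∀ p, e p = move h c p := fun p => rfl
    have hiff : ∀ z : Fin k → ZMod (2 * h),
        (∀ j, move h c (z j) = y j) ↔ z = fun j => e.symm (y j) := by
      intro z
      constructor
      · intro hz
        funext j
        rw [← hz j, ← he]
        exact (e.symm_apply_apply (z j)).symm
      · intro hz j
        rw [hz, ← he]
        exact e.apply_symm_apply (y j)
    rw [Fintype.sum_eq_single (fun j => e.symm (y j))]
    · rw [if_pos ((hiff _).mpr rfl), mul_one]
      have hinj : Function.Injective (fun j => e.symm (y j)) ↔ Function.Injective y := by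
        constructor
        · intro hi a b hab
          exact hi (by show e.symm (y a) = e.symm (y b); rw [hab])
        · intro hi a b hab
          exact hi (e.symm.injective hab)
      unfold unifInj
      simp only [hinj]
    · intro z hz
      rw [if_neg (fun hc => hz ((hiff z).mp hc)), mul_zero]
  have hstep : ∀ z : Fin k → ZMod (2 * h), unifInj h k z * Kmat h k z y =
      ∑ c : ZMod h → Bool,
        unifInj h k z * (if (∀ j, move h c (z j) = y j) then (1:ℝ) else 0) / 2 ^ h := by
    intro z
    show unifInj h k z *
      (((univ.filter fun c : ZMod h → Bool => ∀ j, move h c (z j) = y j).card : ℝ) / 2 ^ h) = _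
    rw [hcard z, ← Finset.sum_div, ← Finset.mul_sum, mul_div_assoc]
  have h2 : ∀ c : ZMod h → Bool,
      ∑ z : Fin k → ZMod (2 * h),
        unifInj h k z * (if (∀ j, move h c (z j) = y j) then (1:ℝ) else 0) / 2 ^ h =
        unifInj h k y / 2 ^ h := by
    intro c
    rw [← Finset.sum_div, hinner c]
  have hc : Fintype.card (ZMod h → Bool) = 2 ^ h := by
    simp [ZMod.card]
  rw [Finset.sum_congr rfl fun z _ => hstep z, Finset.sum_comm,
    Finset.sum_congr rfl fun c _ => h2 c, Finset.sum_const, Finset.card_univ, hc, nsmul_eq_mul]
  push_cast
  field_simp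

end Vale.Agent.Lib.P162.H52
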