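import Mathlib

/-!
# P162, pool job CV8: a killed Markov chain still reaches `P` with nearly the free probability

`K` is a stochastic matrix on a finite state space, `P` a set of states.  The killed matrix
multiplies every row that starts in `P` by `1 / 2`.  If the chain started in `P` cannot return to
`P` within `m0` steps, returns after at least `m0` steps with probability at most `β`, and is in
`P` with probability at most `α` after `s1` steps, then the killed chain is in `P` at time `N`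
with probability at least the free probability minus `α / 2 + N β² / 2`.
-/

open Finset BigOperators

namespace Vale.Agent.Lib.P162.H52CV

section helpers

variable {S : Type*} [Fintype S] [DecidableEq S]

/-- Row sum over `P`. -/
noncomputable def rP (P : Finset S) (X : Matrix S S ℝ) (a : S) : ℝ := ∑ b ∈ P, X a b

/-- The double sum of the telescoping identity. -/
noncomputable def Dn (K : Matrix S S ℝ) (P : Finset S) (n : ℕ) (a : S) : ℝ :=
  ∑ i ∈ range n, ∑ π ∈ P, (K ^ i) a π * rP P (K ^ (n - i)) π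

theorem pow_nonneg_entry (K : Matrix S S ℝ) (hK0 : ∀ a b, 0 ≤ K a b) :
    ∀ (i : ℕ) (a b : S), 0 ≤ (K ^ i) a b := by
  intro i
  induction i with
  | zero =>
    intro a b
    rw [pow_zero, Matrix.one_apply]
    split_ifs <;> norm_num
  | succ i ih =>
    intro a b
    rw [pow_succ', Matrix.mul_apply]
    exact Finset.sum_nonneg fun c _ => mul_nonneg (hK0 a c) (ih c b)

theorem rP_nonneg (K : Matrix S S ℝ) (hK0 : ∀ a b, 0 ≤ K a b) (P : Finset S) (i : ℕ) (a : S) :
    0 ≤ rP P (K ^ i) a :=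
  Finset.sum_nonneg fun b _ => pow_nonneg_entry K hK0 i a b

omit [DecidableEq S] in
theorem rP_mul (K X : Matrix S S ℝ) (P : Finset S) (a : S) :
    rP P (K * X) a = ∑ c, K a c * rP P X c := by
  unfold rP
  simp only [Matrix.mul_apply, Finset.mul_sum]
  exact Finset.sum_comm

omit [Fintype S] in
theorem rP_one (P : Finset S) (a : S) :
    rP P (1 : Matrix S S ℝ) a = if a ∈ P then 1 else 0 := by
  unfold rP
  simp only [Matrix.one_apply]
  exact Finset.sum_ite_eq P a (fun _ => (1 : ℝ))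

omit [DecidableEq S] in
theorem killed_mul (K X : Matrix S S ℝ) (θ : S → ℝ) (a b : S) :
    ((Matrix.of fun a b => θ a * K a b) * X) a b = θ a * (K * X) a b := by
  simp only [Matrix.mul_apply, Matrix.of_apply, Finset.mul_sum, mul_assoc]

theorem Dn_nonneg (K : Matrix S S ℝ) (hK0 : ∀ a b, 0 ≤ K a b) (P : Finset S) (n : ℕ) (a : S) :
    0 ≤ Dn K P n a :=
  Finset.sum_nonneg fun i _ => Finset.sum_nonneg fun π _ =>
    mul_nonneg (pow_nonneg_entry K hK0 i a π) (rP_nonneg K hK0 P (n - i) π)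

theorem Dn_succ (K : Matrix S S ℝ) (P : Finset S) (n : ℕ) (a : S) :
    Dn K P (n + 1) a
      = (if a ∈ P then rP P (K ^ (n + 1)) a else 0) + ∑ c, K a c * Dn K P n c := by
  unfold Dn
  rw [Finset.sum_range_succ']
  have h0 : ∑ π ∈ P, (K ^ 0) a π * rP P (K ^ (n + 1 - 0)) π
      = if a ∈ P then rP P (K ^ (n + 1)) a else 0 := by
    rw [pow_zero, Nat.sub_zero]
    simp only [Matrix.one_apply, ite_mul, one_mul, zero_mul]
    exact Finset.sum_ite_eq P a (fun π => rP P (K ^ (n + 1)) π)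
  have e1 : ∀ i ∈ range n, ∑ π ∈ P, (K ^ (i + 1)) a π * rP P (K ^ (n + 1 - (i + 1))) π
      = ∑ c, K a c * ∑ π ∈ P, (K ^ i) c π * rP P (K ^ (n - i)) π := by
    intro i _
    rw [Nat.add_sub_add_right]
    simp only [Finset.mul_sum]
    rw [Finset.sum_comm]
    refine Finset.sum_congr rfl fun π _ => ?_
    rw [pow_succ', Matrix.mul_apply, Finset.sum_mul]
    refine Finset.sum_congr rfl fun c _ => ?_
    ring
  have h1 : ∑ i ∈ range n, ∑ π ∈ P, (K ^ (i + 1)) a π * rP P (K ^ (n + 1 - (i + 1))) π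
      = ∑ c, K a c * ∑ i ∈ range n, ∑ π ∈ P, (K ^ i) c π * rP P (K ^ (n - i)) π := by
    rw [Finset.sum_congr rfl e1, Finset.sum_comm]
    refine Finset.sum_congr rfl fun c _ => ?_
    rw [Finset.mul_sum]
  rw [h0, h1, add_comm]

/-- The telescoping inequality for the killed chain. -/
theorem tele (K : Matrix S S ℝ) (hK0 : ∀ a b, 0 ≤ K a b) (P : Finset S) (θ : S → ℝ)
    (hθP : ∀ a ∈ P, θ a = 1 / 2) (hθN : ∀ a, a ∉ P → θ a = 1) :
    ∀ (n : ℕ) (a : S), rP P (K ^ n) a - (1 / 2) * Dn K P n a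
      ≤ rP P ((Matrix.of fun a b => θ a * K a b) ^ n) a := by
  intro n
  induction n with
  | zero =>
    intro a
    have h0 : Dn K P 0 a = 0 := by
      unfold Dn
      rw [Finset.range_zero, Finset.sum_empty]
    rw [h0, pow_zero, pow_zero, mul_zero, sub_zero]
  | succ n ih =>
    intro a
    have hArow : rP P ((Matrix.of fun a b => θ a * K a b) ^ (n + 1)) a
        = θ a * ∑ c, K a c * rP P ((Matrix.of fun a b => θ a * K a b) ^ n) c := by
      rw [pow_succ', ← rP_mul]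
      unfold rP
      rw [Finset.mul_sum]
      exact Finset.sum_congr rfl fun b _ => killed_mul K _ θ a b
    have hK : rP P (K ^ (n + 1)) a = ∑ c, K a c * rP P (K ^ n) c := by
      rw [pow_succ', rP_mul]
    have hZ : ∑ c, K a c * (rP P (K ^ n) c - (1 / 2) * Dn K P n c)
        ≤ ∑ c, K a c * rP P ((Matrix.of fun a b => θ a * K a b) ^ n) c :=
      Finset.sum_le_sum fun c _ => mul_le_mul_of_nonneg_left (ih c) (hK0 a c)
    have hZ' : ∑ c, K a c * (rP P (K ^ n) c - (1 / 2) * Dn K P n c)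
        = rP P (K ^ (n + 1)) a - (1 / 2) * ∑ c, K a c * Dn K P n c := by
      rw [hK, Finset.mul_sum, ← Finset.sum_sub_distrib]
      refine Finset.sum_congr rfl fun c _ => ?_
      ring
    have hE : 0 ≤ ∑ c, K a c * Dn K P n c :=
      Finset.sum_nonneg fun c _ => mul_nonneg (hK0 a c) (Dn_nonneg K hK0 P n c)
    rw [hArow, Dn_succ]
    by_cases ha : a ∈ P
    · rw [if_pos ha, hθP a ha]
      linarith
    · rw [if_neg ha, hθN a ha]
      linarith

/-- At most one expected visit to `P` during the first `m0 + 1` steps. -/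
theorem visits (K : Matrix S S ℝ) (hK0 : ∀ a b, 0 ≤ K a b) (hK1 : ∀ a, ∑ b, K a b = 1)
    (P : Finset S) (m0 : ℕ)
    (hgap : ∀ a ∈ P, ∀ s, 1 ≤ s → s ≤ m0 → ∑ b ∈ P, (K ^ s) a b = 0) :
    ∀ m, m ≤ m0 + 1 → ∀ a, ∑ i ∈ range m, rP P (K ^ i) a ≤ 1 := by
  intro m
  induction m with
  | zero =>
    intro _ a
    rw [Finset.range_zero, Finset.sum_empty]
    exact zero_le_one
  | succ m ih =>
    intro hm a
    rw [Finset.sum_range_succ', pow_zero, rP_one]
    by_cases ha : a ∈ P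
    · rw [if_pos ha]
      have hz : ∑ i ∈ range m, rP P (K ^ (i + 1)) a = 0 := by
        refine Finset.sum_eq_zero fun i hi => ?_
        have him : i < m := Finset.mem_range.mp hi
        exact hgap a ha (i + 1) (by omega) (by omega)
      rw [hz, zero_add]
    · rw [if_neg ha, add_zero]
      have hstep : ∑ i ∈ range m, rP P (K ^ (i + 1)) a
          = ∑ c, K a c * ∑ i ∈ range m, rP P (K ^ i) c := by
        have e : ∀ i ∈ range m, rP P (K ^ (i + 1)) a = ∑ c, K a c * rP P (K ^ i) c := by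
          intro i _
          rw [pow_succ', rP_mul]
        rw [Finset.sum_congr rfl e, Finset.sum_comm]
        refine Finset.sum_congr rfl fun c _ => ?_
        rw [Finset.mul_sum]
      rw [hstep]
      calc ∑ c, K a c * ∑ i ∈ range m, rP P (K ^ i) c ≤ ∑ c, K a c * 1 :=
            Finset.sum_le_sum fun c _ =>
              mul_le_mul_of_nonneg_left (ih (by omega) c) (hK0 a c)
        _ = 1 := by
            rw [← Finset.sum_congr rfl fun c _ => (mul_one (K a c)).symm]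
            exact hK1 a

/-- The double sum is at most `α + N β²`. -/
theorem Dbound (K : Matrix S S ℝ) (hK0 : ∀ a b, 0 ≤ K a b) (hK1 : ∀ a, ∑ b, K a b = 1)
    (P : Finset S) (Gd : S → Prop) (hPG : ∀ a ∈ P, Gd a)
    (m0 s1 N : ℕ) (α β : ℝ) (hα : 0 ≤ α) (hβ : 0 ≤ β)
    (hgap : ∀ a ∈ P, ∀ s, 1 ≤ s → s ≤ m0 → ∑ b ∈ P, (K ^ s) a b = 0)
    (hlate : ∀ a, Gd a → ∀ s, m0 ≤ s → ∑ b ∈ P, (K ^ s) a b ≤ β)
    (hmix : ∀ a ∈ P, ∀ s, s1 ≤ s → ∑ b ∈ P, (K ^ s) a b ≤ α)
    (hN : s1 + m0 ≤ N) (σ : S) (hσ : Gd σ) :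
    Dn K P N σ ≤ α + N * β ^ 2 := by
  have hterm : ∀ i ∈ range N, ∑ π ∈ P, (K ^ i) σ π * rP P (K ^ (N - i)) π
      ≤ (if i ≤ m0 then α * rP P (K ^ i) σ else 0) + β ^ 2 := by
    intro i hi
    have hiN : i < N := Finset.mem_range.mp hi
    by_cases him : i ≤ m0
    · rw [if_pos him]
      have hb : ∀ π ∈ P, rP P (K ^ (N - i)) π ≤ α := fun π hπ =>
        hmix π hπ (N - i) (by omega)
      have h1 : ∑ π ∈ P, (K ^ i) σ π * rP P (K ^ (N - i)) π ≤ ∑ π ∈ P, (K ^ i) σ π * α :=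
        Finset.sum_le_sum fun π hπ =>
          mul_le_mul_of_nonneg_left (hb π hπ) (pow_nonneg_entry K hK0 i σ π)
      have h2 : ∑ π ∈ P, (K ^ i) σ π * α = α * rP P (K ^ i) σ := by
        unfold rP
        rw [Finset.mul_sum]
        exact Finset.sum_congr rfl fun π _ => mul_comm _ _
      have h3 : 0 ≤ β ^ 2 := sq_nonneg β
      linarith
    · rw [if_neg him, zero_add]
      have hb : ∀ π ∈ P, rP P (K ^ (N - i)) π ≤ β := by
        intro π hπ
        by_cases hs : N - i ≤ m0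
        · have h0 : rP P (K ^ (N - i)) π = 0 := hgap π hπ (N - i) (by omega) hs
          rw [h0]
          exact hβ
        · exact hlate π (hPG π hπ) (N - i) (by omega)
      have h1 : ∑ π ∈ P, (K ^ i) σ π * rP P (K ^ (N - i)) π ≤ ∑ π ∈ P, (K ^ i) σ π * β :=
        Finset.sum_le_sum fun π hπ =>
          mul_le_mul_of_nonneg_left (hb π hπ) (pow_nonneg_entry K hK0 i σ π)
      have h2 : ∑ π ∈ P, (K ^ i) σ π * β = rP P (K ^ i) σ * β := by
        unfold rP
        rw [Finset.sum_mul]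
      have h3 : rP P (K ^ i) σ ≤ β := hlate σ hσ i (by omega)
      have h4 : rP P (K ^ i) σ * β ≤ β * β := mul_le_mul_of_nonneg_right h3 hβ
      have h5 : β * β = β ^ 2 := by ring
      linarith
  have hsum : Dn K P N σ
      ≤ ∑ i ∈ range N, ((if i ≤ m0 then α * rP P (K ^ i) σ else 0) + β ^ 2) :=
    Finset.sum_le_sum hterm
  have hsplit : ∑ i ∈ range N, ((if i ≤ m0 then α * rP P (K ^ i) σ else 0) + β ^ 2)
      = (∑ i ∈ range N, if i ≤ m0 then α * rP P (K ^ i) σ else 0) + N * β ^ 2 := by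
    rw [Finset.sum_add_distrib, Finset.sum_const, Finset.card_range, nsmul_eq_mul]
  have hearly : (∑ i ∈ range N, if i ≤ m0 then α * rP P (K ^ i) σ else 0) ≤ α := by
    have hle : (∑ i ∈ range N, if i ≤ m0 then α * rP P (K ^ i) σ else 0)
        ≤ ∑ i ∈ range (m0 + 1), α * rP P (K ^ i) σ := by
      rw [← Finset.sum_filter]
      refine Finset.sum_le_sum_of_subset_of_nonneg ?_ ?_
      · intro i hi
        rw [Finset.mem_filter] at hi
        exact Finset.mem_range.mpr (by omega)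
      · intro i _ _
        exact mul_nonneg hα (rP_nonneg K hK0 P i σ)
    have hv := visits K hK0 hK1 P m0 hgap (m0 + 1) le_rfl σ
    rw [← Finset.mul_sum] at hle
    have h6 : α * ∑ i ∈ range (m0 + 1), rP P (K ^ i) σ ≤ α * 1 :=
      mul_le_mul_of_nonneg_left hv hα
    linarith
  linarith

end helpers

/-- A chain killed with probability `1 / 2` at each visit to `P` still reaches `P` at time `N`
with nearly the free probability. -/
theorem killed_lower {S : Type*} [Fintype S] [DecidableEq S] (K : Matrix S S ℝ)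
    (hK0 : ∀ a b, 0 ≤ K a b) (hK1 : ∀ a, ∑ b, K a b = 1)
    (P : Finset S) (Gd : S → Prop) (hGd : ∀ a b, Gd a → K a b ≠ 0 → Gd b) (hPG : ∀ a ∈ P, Gd a)
    (m0 s1 N : ℕ) (α β γ : ℝ) (hα : 0 ≤ α) (hβ : 0 ≤ β)
    (hgap : ∀ a ∈ P, ∀ s, 1 ≤ s → s ≤ m0 → ∑ b ∈ P, (K ^ s) a b = 0)
    (hlate : ∀ a, Gd a → ∀ s, m0 ≤ s → ∑ b ∈ P, (K ^ s) a b ≤ β)
    (hmix : ∀ a ∈ P, ∀ s, s1 ≤ s → ∑ b ∈ P, (K ^ s) a b ≤ α)
    (hN : s1 + m0 ≤ N) (σ : S) (hσ : Gd σ) (hγ : γ ≤ ∑ b ∈ P, (K ^ N) σ b) :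
    γ - α / 2 - N * β ^ 2 / 2
      ≤ ∑ b ∈ P, ((Matrix.of fun a b => (if a ∈ P then (1 / 2 : ℝ) else 1) * K a b) ^ N) σ b := by
  have _hGd := hGd
  have hD := Dbound K hK0 hK1 P Gd hPG m0 s1 N α β hα hβ hgap hlate hmix hN σ hσ
  have hT := tele K hK0 P (fun a => if a ∈ P then (1 / 2 : ℝ) else 1)
    (fun a ha => if_pos ha) (fun a ha => if_neg ha) N σ
  have hγ' : γ ≤ rP P (K ^ N) σ := hγ
  have hT' : rP P (K ^ N) σ - (1 / 2) * Dn K P N σ
      ≤ ∑ b ∈ P, ((Matrix.of fun a b => (if a ∈ P then (1 / 2 : ℝ) else 1) * K a b) ^ N) σ b :=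
    hT
  linarith

end Vale.Agent.Lib.P162.H52CV
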